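import Vale.Agent.P022F.Loc.Clo

/-!
# P022, block Loc: the class in terms of fixed traces and determinants
-/

set_option linter.all false

noncomputable section

namespace Vale.Agent.P022F.Loc

open NumberField IsLocalRing
open Vale.Agent.P022 Vale.Agent.P022.H443 Vale.Agent.P022D Vale.Agent.P022D.R
open Vale.Agent.P027M.S (mx)
open Vale.Agent.P022D.Sel (M2 IsDec)
open Vale.Agent.P022F.Sel (Dh)

variable {O F : Type} [CommRing O] [Field F] {S : Dat O F}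

/-- the elements with fixed trace -/
def Pl.TT (L : Pl O) : Set GQ :=
  {g | ∃ l ∈ L.W, g = L.τ l ∨ g = L.τ l * L.g0 l ∨ g = L.g0 l}

/-- the elements with fixed determinant -/
def Pl.DD (L : Pl O) : Set GQ :=
  {g | g ∈ W.dec (L.P 2) ∨ g = L.c ∨ (∃ l ∈ L.W ∪ L.C, g = L.τ l) ∨ ∃ l ∈ L.W, g = L.g0 l}

theorem cnd_of_cls [IsLocalRing O] {L : Pl O} (hL : L.Ok S) {A : Type} [CommRing A] (X : Obj S A)
    (ht : ∀ g ∈ L.TT, (X.ρ g).trace = X.ι (L.r g).trace)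
    (hd : ∀ g ∈ L.DD, (X.ρ g).det = X.ι (L.r g).det) : Cnd L S X := by
  refine ⟨fun g hg => hd g (Or.inl hg), ?_, fun l hl => hd _ (Or.inr (Or.inr (Or.inl ⟨l, hl, rfl⟩))),
    fun l hl => ?_⟩
  · rw [hd _ (Or.inr (Or.inl rfl)), hL.odd, map_neg, map_one]
  · obtain ⟨y, h1, h2, h3⟩ := hL.ty l hl
    have t1 := ht _ ⟨l, hl, Or.inl rfl⟩
    have t2 := ht _ ⟨l, hl, Or.inr (Or.inl rfl)⟩
    have t3 := ht _ ⟨l, hl, Or.inr (Or.inr rfl)⟩
    have d3 := hd _ (Or.inr (Or.inr (Or.inr ⟨l, hl, rfl⟩)))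
    refine ⟨X.ι y, ?_, by rw [X.alg, h2], ?_⟩
    · unfold Rt at h1 ⊢
      have := congrArg X.ι h1
      rwa [map_add, map_sub, map_mul X.ι, map_pow, ← t3, ← d3, map_zero] at this
    · unfold En at h3 ⊢
      have := congrArg X.ι h3
      rwa [map_sub X.ι, map_mul X.ι, map_mul X.ι, map_sub X.ι, map_mul X.ι, map_ofNat X.ι, ← t1,
        ← t2, ← t3] at this

theorem cnd_pt [IsLocalRing O] {L : Pl O} (hL : L.Ok S) {A : Type} [CommRing A] (X : Obj S A)
    (h : ∀ g, X.ρ g = (L.r g).map X.ι) : Cnd L S X :=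
  cnd_of_cls hL X (fun g _ => by
      rw [h, Matrix.trace_fin_two, Matrix.trace_fin_two, map_add]; rfl)
    (fun g _ => by rw [h, RingHom.map_det]; rfl)

/-- the type of the point with respect to a regular element -/
theorem ex_ty [IsLocalRing O] [IsAdicComplete (maximalIdeal O) O]
    (ker : ∀ c, S.red c = 0 ↔ c ∈ maximalIdeal O) {L : Pl O} {l : ℕ}
    {r : GQ →* M2 O} (lift : ∀ g, (r g).map S.red = mx S.rb g) {g : GQ}
    (hg : L.rb S l g 0 1 = 0) (hne : L.rb S l g 0 0 ≠ L.rb S l g 1 1) (s : GQ) :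
    ∃ a y : O, Rt r g y ∧ S.red y = L.rb S l g 1 1 ∧ En r g s y a := by
  have hk : RingHom.ker S.red = maximalIdeal O := Ideal.ext fun c => ker c
  have loc : ∀ a : O, S.red a ≠ 0 → IsUnit a := fun a ha => by
    by_contra hn
    exact ha ((ker a).2 hn)
  haveI : HenselianRing O (RingHom.ker S.red) := by rw [hk]; infer_instance
  have ht : S.red (r g).trace = L.rb S l g 0 0 + L.rb S l g 1 1 := by
    rw [← (reg_tr hg).1, ← lift g, Matrix.trace_fin_two, Matrix.trace_fin_two, map_add]; rfl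
  have hd : S.red (r g).det = L.rb S l g 0 0 * L.rb S l g 1 1 := by
    rw [← (reg_tr hg).2, ← lift g, RingHom.map_det]; rfl
  obtain ⟨c, hc⟩ := S.surj (L.rb S l g 1 1)
  obtain ⟨y, h1, h2⟩ := rt_ex loc hne ht hd hc
  obtain ⟨v, hv⟩ := (loc ((r g).trace - 2 * y) (by
    rw [map_sub, map_mul, map_ofNat, ht, h2]
    intro h0
    exact hne (by linear_combination h0))).exists_right_inv
  refine ⟨((r (s * g)).trace - y * (r s).trace) * v, y, h1, h2, ?_⟩
  unfold En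
  rw [mul_assoc, mul_comm v, hv, mul_one]

/-- the regular elements can be replaced -/
theorem setG [IsLocalRing O] [IsAdicComplete (maximalIdeal O) O] {L : Pl O} (hL : L.Ok S)
    (g1 : ℕ → GQ) (h : ∀ l ∈ L.W, g1 l ∈ W.dec (L.P l) ∧ g1 l ∈ L.Hl l ∧
      L.rb S l (g1 l) 0 0 ≠ L.rb S l (g1 l) 1 1) :
    ∃ a : ℕ → O, Pl.Ok { L with g0 := g1, a := a } S := by
  have key : ∀ l ∈ L.W, ∃ a y : O, Rt L.r (g1 l) y ∧ S.red y = L.rb S l (g1 l) 1 1 ∧
      En L.r (g1 l) (L.τ l) y a := fun l hl =>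
    ex_ty hL.ker hL.lift (hL.dg l hl _ (h l hl).2.1).1 (h l hl).2.2 _
  choose! a ha using key
  exact ⟨a, hL.ker, hL.dh, hL.nc, hL.det, hL.hT, hL.dj, hL.pr, hL.hP, hL.h2, hL.cj, hL.tm,
    hL.dg, hL.ad, h, hL.uni, hL.lift, hL.cont, hL.odd, ha⟩

end Vale.Agent.P022F.Loc
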