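import Vale.Agent.P022F.Loc.G4
import Vale.Agent.P022D.Gma.Rep

/-!
# P022F, block Loc: the local basis over the coefficient ring, the root of the point
-/

set_option linter.all false

noncomputable section

namespace Vale.Agent.P022F.G4

open IsLocalRing
open Vale.Agent.P022D.W (Mt TameAt cjH)
open Vale.Agent.P022D

variable {O F : Type} [CommRing O] [Field F]

/-- an invertible matrix lifts -/
theorem lift_uv (red : O →+* F) (hs : Function.Surjective red)
    (loc : ∀ x, red x ≠ 0 → IsUnit x) {u v : Mt F} (h : u * v = 1) :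
    ∃ U : GL (Fin 2) O, (U : Mt O).map red = u ∧ ((U⁻¹ : GL (Fin 2) O) : Mt O).map red = v := by
  choose s hs using hs
  have e : (u.map s).map red = u := by ext i j; exact hs _
  have hd : IsUnit (u.map s).det := loc _ (by
    rw [RingHom.map_det, RingHom.mapMatrix_apply, e]
    exact (Matrix.isUnit_det_of_right_inverse h).ne_zero)
  obtain ⟨U, hU⟩ := (Matrix.isUnit_iff_isUnit_det _).2 hd
  have e1 : (U : Mt O).map red = u := by rw [hU, e]
  refine ⟨U, e1, ?_⟩
  have e2 : ((U⁻¹ : GL (Fin 2) O) : Mt O).map red * u = 1 := by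
    rw [← e1, ← Matrix.map_mul, Units.inv_mul, Matrix.map_one _ (map_zero _) (map_one _)]
  calc ((U⁻¹ : GL (Fin 2) O) : Mt O).map red
      = ((U⁻¹ : GL (Fin 2) O) : Mt O).map red * (u * v) := by rw [h, mul_one]
    _ = v := by rw [← mul_assoc, e2, one_mul]

/-- the root of the characteristic polynomial above a simple residual root -/
theorem root [IsLocalRing O] [IsAdicComplete (maximalIdeal O) O] (red : O →+* F)
    (hs : Function.Surjective red) (hk : ∀ c, red c = 0 ↔ c ∈ maximalIdeal O) (t d z w : O)
    {a0 b0 : F} (e1 : red t = a0 + b0) (e2 : red d = a0 * b0) (hne : a0 ≠ b0) :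
    ∃ a y : O, y ^ 2 - t * y + d = 0 ∧ red y = b0 ∧ z - y * w = a * (t - 2 * y) := by
  have un : ∀ x : O, red x ≠ 0 → IsUnit x := fun x hx =>
    (notMem_maximalIdeal (R := O)).1 fun h => hx ((hk x).2 h)
  obtain ⟨a₀, ha⟩ := hs b0
  obtain ⟨y, y', k1, k2, k3⟩ := Gma.hensel (maximalIdeal O) t d a₀
    (by
      rw [← hk]
      simp only [map_add, map_sub, map_mul, map_pow, ha, e1, e2]
      ring)
    ((un _ (by
      simp only [map_sub, map_mul, map_ofNat, ha, e1]
      intro h
      exact hne (by linear_combination -h))).map _)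
  have ey : red y = b0 := by
    rw [← hk, map_sub, ha] at k3
    exact sub_eq_zero.1 k3
  obtain ⟨v, hv⟩ := (un (t - 2 * y) (by
    simp only [map_sub, map_mul, map_ofNat, ey, e1]
    intro h
    exact hne (by linear_combination h))).exists_left_inv
  refine ⟨(z - y * w) * v, y, ?_, ey, ?_⟩
  · rw [← k1, ← k2]
    ring
  · rw [mul_assoc, hv, mul_one]

/-- trace and determinant of a matrix which is triangular in some basis -/
theorem tr_det {u v M : Mt F} (h : u * v = 1) (h01 : (u * M * v) 0 1 = 0) :
    M.trace = (u * M * v) 0 0 + (u * M * v) 1 1 ∧ M.det = (u * M * v) 0 0 * (u * M * v) 1 1 := by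
  have hvu : v * u = 1 := mul_eq_one_comm.1 h
  constructor
  · rw [← Matrix.trace_fin_two, Matrix.trace_mul_cycle, hvu, one_mul]
  · have : (u * M * v).det = M.det := by
      rw [Matrix.det_mul, Matrix.det_mul, mul_right_comm, ← Matrix.det_mul, h, Matrix.det_one,
        one_mul]
    rw [← this, Matrix.det_fin_two, h01, zero_mul, sub_zero]

/-- a root of the characteristic polynomial gives both eigenvalues -/
theorem eig_of {M : Mt F} (h : ∃ y : F, y ^ 2 - M.trace * y + M.det = 0) :
    ∃ a b : F, M.trace = a + b ∧ M.det = a * b := by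
  obtain ⟨y, h⟩ := h
  exact ⟨y, M.trace - y, by ring, by linear_combination h⟩

end Vale.Agent.P022F.G4
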